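import Vale.Agent.P281.H383.Gen.Ext
import Vale.Agent.P281.H152.D.Cov

/-!
# P281, project T-UD, block UL (helper383): the complement of finitely many prime divisors in a
connected open subset
-/

open Set Filter Metric Topology
open scoped ContDiff Manifold
open Vale.Agent.P281 Vale.Agent.P281.H713 Vale.Agent.P281.H64

noncomputable section

namespace Vale.Agent.P281.H383.UL

variable {n : ℕ} {X : Type} [TopologicalSpace X] [T2Space X] [ChartedSpace (Cm n) X]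
  [IsManifold 𝓘(ℂ, Cm n) ω X]

theorem preconn_off {Ω : Set X} (hΩ : IsOpen Ω) (hc : IsPreconnected Ω) {𝒜 : Set (Set X)}
    (h𝒜 : 𝒜.Finite) (hp : ∀ D ∈ 𝒜, J.IsPrime (Cm n) D) : IsPreconnected (Ω \ ⋃₀ 𝒜) := by
  classical
  set O : TopologicalSpace.Opens X := ⟨Ω, hΩ⟩ with hO
  have : PreconnectedSpace O := isPreconnected_iff_preconnectedSpace.1 hc
  have hcl : IsClosed (⋃₀ 𝒜) := by
    rw [sUnion_eq_biUnion]
    exact h𝒜.isClosed_biUnion fun D hD => (hp D hD).1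
  have hthin : Vale.Agent.P281.H64.Thin.IsThinSet (Cm n) (Subtype.val ⁻¹' ⋃₀ 𝒜 : Set O) := by
    refine ⟨hcl.preimage continuous_subtype_val, fun y => ?_⟩
    have h1 : ∀ D : Set X, ∃ g : X → ℂ, D ∈ 𝒜 → J.IsLocalEq (Cm n) D g (y : X) := by
      intro D
      by_cases hD : D ∈ 𝒜
      · obtain ⟨g, hg⟩ := (hp D hD).2.1 (y : X)
        exact ⟨g, fun _ => hg⟩
      · exact ⟨0, fun h => absurd h hD⟩
    choose e he using h1
    have h2 : ∀ᶠ z in 𝓝 (y : X), ∀ D ∈ 𝒜, (z ∈ D ↔ e D z = 0) := by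
      rw [Filter.eventually_all_finite h𝒜]
      exact fun D hD => H152.D.leq_mem (he D hD)
    have h3 : ∀ᶠ z in 𝓝 (y : X), (z ∈ ⋃₀ 𝒜 ↔ ∏ D ∈ h𝒜.toFinset, e D z = 0) := by
      filter_upwards [h2] with z hz
      rw [Finset.prod_eq_zero_iff]
      constructor
      · rintro ⟨D, hD, hzD⟩
        exact ⟨D, h𝒜.mem_toFinset.2 hD, (hz D hD).1 hzD⟩
      · rintro ⟨D, hD, hzD⟩
        exact ⟨D, h𝒜.mem_toFinset.1 hD, (hz D (h𝒜.mem_toFinset.1 hD)).2 hzD⟩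
    have hmap : map (Subtype.val : O → X) (𝓝 y) = 𝓝 (y : X) :=
      O.2.isOpenEmbedding_subtypeVal.map_nhds_eq y
    refine ⟨fun z : O => ∏ D ∈ h𝒜.toFinset, e D (z : X), ?_, fun hcon => ?_, ?_⟩
    · have h4 : ContMDiffAt 𝓘(ℂ, Cm n) 𝓘(ℂ, ℂ) ω (fun z : X => ∏ D ∈ h𝒜.toFinset, e D z) (y : X) :=
        contMDiffAt_finset_prod fun D hD => H152.D.leq_hol (he D (h𝒜.mem_toFinset.1 hD))
      exact contMDiffAt_subtype_iff.2 h4
    · have h5 : ∀ᶠ z in 𝓝 (y : X), ∏ D ∈ h𝒜.toFinset, e D z = 0 := by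
        rw [← hmap]
        exact hcon
      refine H152.D.off_union h𝒜 (fun D => D) (fun D hD => (hp D hD).1) (fun D hD x => ?_) (y : X) ?_
      · obtain ⟨g, hg⟩ := (hp D hD).2.1 x
        exact H152.D.leq_not_nhds hg
      · filter_upwards [h3, h5] with z k1 k2 k3
        obtain ⟨D, hD, hzD⟩ := k1.2 k2
        exact k3 D hD hzD
    · exact continuous_subtype_val.continuousAt.eventually (h3.mono fun z hz h => hz.1 h)
  have h1 := (H383.Gen.compl n O (Subtype.val ⁻¹' ⋃₀ 𝒜)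
    ⟨hthin.1, fun _ => _, fun _ => hthin, fun z hz => mem_iUnion.2 ⟨0, hz⟩⟩).2
  have h2 := h1.image (Subtype.val : O → X) continuous_subtype_val.continuousOn
  have h3 : (Subtype.val : O → X) '' ((Subtype.val : O → X) ⁻¹' ⋃₀ 𝒜)ᶜ = Ω \ ⋃₀ 𝒜 := by
    ext y
    constructor
    · rintro ⟨x, hx, rfl⟩
      exact ⟨x.2, hx⟩
    · rintro ⟨hy, hyS⟩
      exact ⟨⟨y, hy⟩, hyS, rfl⟩
  rwa [h3] at h2

end Vale.Agent.P281.H383.UL
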