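import Vale.Agent.P281.H383.UL.Loc
import Vale.Agent.P281.H383.UL.Conn
import Vale.Agent.P281.H511.UD.Bnd

/-!
# P281, project T-UD, block UL (helper383): `IsOrbM ⟹ IsOrbD`
-/

open Set Filter Metric Topology
open scoped ContDiff Manifold
open Vale.Agent.P281 Vale.Agent.P281.H713 Vale.Agent.P281.H64
open Vale.Agent.P281.H64.TD (Cub)
open Vale.Agent.P281.H64.TU (Tame)
open Vale.Agent.P281.H303.UD (IsOrbM IsOrbD IsPolz)
open Vale.Agent.P281.H125.D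
open Vale.Agent.P281.H969.D (LeA LeM HasDiv FibD exists_full locconst_fib isLam_transport IsThetaD
  frv frv_re isHerm_frv divOne_of leS_iff)

noncomputable section

namespace Vale.Agent.P281.H383.UL

section IsCovMono

variable {E : Type} [NormedAddCommGroup E] [NormedSpace ℂ E] {X : Type} [TopologicalSpace X]
  [ChartedSpace E X]
variable {n : ℕ} {V : Type*} [NormedAddCommGroup V] [NormedSpace ℂ V]
variable {P : Type*} [NormedAddCommGroup P] [NormedSpace ℂ P]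

theorem IsCov.mono {π : P → ((Fin n → ℝ) ≃L[ℝ] V)} {T T' : Set P} {U : P × V → X}
    (h : H152.D.IsCov E π T U) (hT : IsOpen T') (hs : T' ⊆ T) : H152.D.IsCov E π T' U where
  isOpen := hT
  hper := fun x => (h.hper x).mono hs
  hol := fun w hw => h.hol w (hs hw)
  per := fun w hw => h.per w (hs hw)
  sec := fun w hw => h.sec w (hs hw)

end IsCovMono

variable {E E' : Type} [NormedAddCommGroup E] [NormedSpace ℂ E]
  [NormedAddCommGroup E'] [NormedSpace ℂ E']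
variable {X Y : Type} [TopologicalSpace X] [ChartedSpace E X]
  [TopologicalSpace Y] [ChartedSpace E' Y]
variable {V : Type} [NormedAddCommGroup V] [InnerProductSpace ℂ V] [FiniteDimensional ℂ V]
variable {Vb : Type} [NormedAddCommGroup Vb] [InnerProductSpace ℂ Vb] [FiniteDimensional ℂ Vb]

variable {n nb d : ℕ} {T : Tame (Fin d → ℂ) X} {f : X → Y} {S : Set Y}
  {Q : (Fin n → ℝ) → (Fin n → ℝ) → ℝ} {QB : (Fin nb → ℝ) → (Fin nb → ℝ) → ℝ} {ι : Type}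
  {U : ι → Set Y} {π : ι → Y → ((Fin n → ℝ) ≃L[ℝ] V)} {ϖ : ι → Y → ((Fin nb → ℝ) ≃L[ℝ] Vb)}
  {j : ι → Y → Vb →L[ℂ] V} {ℓ : ι → Y → V →L[ℂ] Vb} {L : ι → X → (X → V) → Prop}
  {u : ι → X → (X → V) → Vb → X} {𝒜 : Set (Set X)}

/-- the parameters: the points off the divisors, with a lift -/
def UI (L : ι → X → (X → V) → Prop) (𝒜 : Set (Set X)) (i : ι × (X → V)) : Set X :=
  {x | L i.1 x i.2 ∧ ∀ D ∈ 𝒜, x ∉ D}

theorem isOpen_UI (hM : IsOrbM E E' d T f S Q QB U π ϖ j ℓ L u) (h𝒜 : 𝒜.Finite)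
    (hp : ∀ D ∈ 𝒜, J.IsPrime E D) (i : ι × (X → V)) : IsOpen (UI L 𝒜 i) := by
  have hcl : IsClosed (⋃ D ∈ 𝒜, D) := h𝒜.isClosed_biUnion fun D hD => (hp D hD).1
  have h1 : UI L 𝒜 i = {x | L i.1 x i.2} ∩ (⋃ D ∈ 𝒜, D)ᶜ := by
    ext x
    simp [UI]
  rw [h1]
  exact (isOpen_L hM i.1 i.2).inter hcl.isOpen_compl

variable [FiniteDimensional ℂ E] [IsManifold 𝓘(ℂ, E) ω X]

theorem hasDiv (hf : ContMDiff 𝓘(ℂ, E) 𝓘(ℂ, E') ω f)
    (hM : IsOrbM E E' d T f S Q QB U π ϖ j ℓ L u) (h𝒜 : 𝒜.Finite) (hp : ∀ D ∈ 𝒜, J.IsPrime E D) :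
    HasDiv E E (UI L 𝒜) (fun i x => ϖ i.1 (f x)) (fun i x v => u i.1 x i.2 v) 𝒜 := by
  rintro i x ⟨hx, hxD⟩
  set χ := chartAt E x with hχ
  have hχm : χ ∈ IsManifold.maximalAtlas 𝓘(ℂ, E) ω X :=
    IsManifold.chart_mem_maximalAtlas (I := 𝓘(ℂ, E)) (n := ω) x
  have hs : x ∈ χ.source := mem_chart_source E x
  have h0 : χ.symm (χ x) = x := χ.left_inv hs
  have hC := isCov hf hM i.1 i.2 hχm
  have hT : IsOpen (χ.target ∩ χ.symm ⁻¹' (UI L 𝒜 i)) :=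
    χ.continuousOn_symm.isOpen_inter_preimage χ.open_target (isOpen_UI hM h𝒜 hp i)
  have hsub : χ.target ∩ χ.symm ⁻¹' (UI L 𝒜 i) ⊆ χ.target ∩ χ.symm ⁻¹' {x | L i.1 x i.2} :=
    fun t ht => ⟨ht.1, ht.2.1⟩
  have hC' := IsCov.mono hC hT hsub
  refine ⟨χ, χ.target ∩ χ.symm ⁻¹' (UI L 𝒜 i), hs, ⟨χ.map_source hs, ?_⟩, hT, inter_subset_left,
    fun t ht => ht.2, hC'.hper, hC'.divDatum h𝒜 hp⟩
  show χ.symm (χ x) ∈ UI L 𝒜 i
  rw [h0]
  exact ⟨hx, hxD⟩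

/-- **The data on the orbits.** -/
theorem hfib (hf : ContMDiff 𝓘(ℂ, E) 𝓘(ℂ, E') ω f)
    (hM : IsOrbM E E' d T f S Q QB U π ϖ j ℓ L u) (h𝒜 : 𝒜.Finite) (hp : ∀ D ∈ 𝒜, J.IsPrime E D)
    (hS : IsPreconnected ((f ⁻¹' S)ᶜ \ ⋃₀ 𝒜)) :
    ∃ τ : ℝ, 0 ≤ τ ∧ ∀ a x β, L a x β → (∀ D ∈ 𝒜, x ∉ D) →
      ∃ (Le : Vb → (Vb → ℂ) → Prop) (S' : Vb → Vb → ℂ) (lam : Vb → ℝ)
        (wf : Vb → Vb →L[ℂ] Vb →L[ℂ] ℂ),
        FibD (ϖ a (f x)) {v | ∃ D ∈ 𝒜, u a x β v ∈ D} Le S' lam wf ∧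
        (∀ v, (∀ D ∈ 𝒜, u a x β v ∉ D) → ∀ x₁ x₂ x₃,
          PhiM E 𝒜 (ϖ a (f x)) (u a x β) v x₁ x₂ x₃ = fderiv ℂ wf v x₁ x₂ x₃) ∧
        ∀ Gb : Vb ≃L[ℂ] Vb, IsPolz QB (ϖ a (f x)) Gb → ∀ w, (S' w w).re ≤ τ * ‖Gb w‖ ^ 2 := by
  classical
  set U' : ι × (X → V) → Set X := UI L 𝒜 with hU'
  set π' : ι × (X → V) → X → ((Fin nb → ℝ) ≃L[ℝ] Vb) := fun i x => ϖ i.1 (f x) with hπ'
  set u' : ι × (X → V) → X → Vb → X := fun i x v => u i.1 x i.2 v with hu'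
  have hDiv : HasDiv E E U' π' u' 𝒜 := hasDiv hf hM h𝒜 hp
  have hoff : ∀ i, ∀ x ∈ U' i, ∃ v, ∀ D ∈ 𝒜, u' i x v ∉ D := by
    rintro i x ⟨hx, hxD⟩
    refine ⟨0, fun D hD => ?_⟩
    show u i.1 x i.2 0 ∉ D
    rw [hM.zero _ _ _ hx]
    exact hxD D hD
  have hex : ∀ i x, ∃ (E₀ : Vb →L[ℝ] Vb →L[ℝ] ℝ) (lam : Vb → ℝ), x ∈ U' i →
      IsLam (π' i x) (LeA E 𝒜 (u' i x)) E₀ lam ∧ IsThetaD (π' i x) (frv E₀) lam := by
    intro i x
    by_cases hy : x ∈ U' i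
    · obtain ⟨E₀, lam, h1, h2⟩ := exists_full hDiv hoff i hy
      exact ⟨E₀, lam, fun _ => ⟨h1, h2⟩⟩
    · exact ⟨0, 0, fun h => (hy h).elim⟩
  choose E₀ lam hE using hex
  -- uniqueness
  have huniq : ∀ i, ∀ x ∈ U' i, ∀ (E₁ : Vb →L[ℝ] Vb →L[ℝ] ℝ) (lam' : Vb → ℝ),
      IsLam (π' i x) (LeA E 𝒜 (u' i x)) E₁ lam' → ∀ v w, E₁ v w = E₀ i x v w := by
    intro i x hy E₁ lam' h v w
    have h1 := (locconst_fib hDiv hoff i hy).self_of_nhds E₁ (E₀ i x) lam' (lam i x) h (hE i x hy).1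
      ((π' i x).symm v) ((π' i x).symm w)
    simpa using h1
  obtain ⟨τ, hτ, hτ'⟩ := H383.TD.D10c (S := f ⁻¹' S ∪ ⋃₀ 𝒜) (Q := QB) (U := U') (π := π')
    (fun x => by
      constructor
      · intro hx
        have h1 : f x ∉ S := fun h => hx (Or.inl h)
        obtain ⟨a, ha⟩ := (hM.cover (f x)).1 h1
        obtain ⟨β, hβ⟩ := hM.lift a x ha
        exact ⟨(a, β), hβ, fun D hD h => hx (Or.inr ⟨D, hD, h⟩)⟩
      · rintro ⟨i, hx, hxD⟩ h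
        rcases h with h | ⟨D, hD, h⟩
        · exact (hM.cover (f x)).2 ⟨i.1, hM.mem _ _ _ hx⟩ h
        · exact hxD D hD h)
    (isOpen_UI hM h𝒜 hp)
    (by
      have h1 : (f ⁻¹' S ∪ ⋃₀ 𝒜)ᶜ = (f ⁻¹' S)ᶜ \ ⋃₀ 𝒜 := by
        rw [compl_union]
        rfl
      rw [h1]
      exact hS)
    (fun i x hx => hM.famb.polarized i.1 (f x) (hM.mem _ _ _ hx.1)) E₀
    (fun i x hx v => (hE i x hx).1.alt v)
    (fun i x hx w => by
      have h1 := (hE i x hx).2.form_nonneg w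
      rwa [frv_re] at h1)
    (fun i x hx => by
      filter_upwards [locconst_fib hDiv hoff i hx, (isOpen_UI hM h𝒜 hp i).mem_nhds hx]
        with x' h1 h2
      exact h1 _ _ _ _ (hE i x' h2).1 (hE i x hx).1)
    (fun i k x hx => by
      obtain ⟨G, c, Gb, h1, h2, h3, h4, h5⟩ := hM.change i.1 k.1 x i.2 k.2 hx.1.1 hx.2.1
      have h6 := (h5.self_of_nhds rfl).2
      refine ⟨Gb, h2, fun v w => ?_⟩
      have h4 := isLam_transport (EX := E) (𝒜 := 𝒜) (e := π' i x) (e' := π' k x) (uy := u' i x)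
        (uy' := u' k x) (G := Gb) (c := 0) (fun m => h2.1 m)
        (fun w => by rw [add_zero]; exact h6 w) (hE k x hx.2).1
      exact huniq i x hx.1 _ _ h4 v w)
  refine ⟨τ, hτ, fun a x β hx hxD => ?_⟩
  have hxU : x ∈ U' (a, β) := ⟨hx, hxD⟩
  obtain ⟨h1, h2⟩ := hE (a, β) x hxU
  have hcan := can_orb hf hM h𝒜 hp hx
  have hoff' : ∀ z, z ∉ {v | ∃ D ∈ 𝒜, u a x β v ∈ D} ↔ ∀ D ∈ 𝒜, u a x β z ∉ D := by
    intro z
    simp only [mem_ofPred_eq, not_exists, not_and]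
  have huh := orb_hol hM hx
  have huc := orb_cont hM hx
  refine ⟨LeA E 𝒜 (u a x β), frv (E₀ (a, β) x), lam (a, β) x, _, ?_, fun v hv x₁ x₂ x₃ => rfl,
    fun Gb hGb w => ?_⟩
  · exact
      { ex := fun z => leA_ex hp _ z
        an := fun z g hg => leA_an h𝒜 (huh z) hg
        zero := fun z g hg => by
          filter_upwards [leA_zero h𝒜 huc.continuousAt hg] with w hw
          exact hw.symm
        dense := one_dense h𝒜 hp huh (v₀ := 0) fun D hD => by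
          rw [hM.zero a x β hx]
          exact hxD D hD
        herm := h2.herm
        cont := h2.cont
        per := h2.per
        loc := fun z g hg => by
          obtain ⟨s, h8, h9⟩ := h1.loc z g hg
          refine ⟨s, h8, ?_⟩
          filter_upwards [h9] with w hw
          rw [hw, frv_re]
        wper := fun z hz k => hcan.per z k hz
        wloc := fun z g hg => hcan.loc z g hg }
  · rw [frv_re]
    exact hτ' (a, β) x hxU Gb hGb w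

theorem isOrbD (hf : ContMDiff 𝓘(ℂ, E) 𝓘(ℂ, E') ω f)
    (hM : IsOrbM E E' d T f S Q QB U π ϖ j ℓ L u) (h𝒜 : 𝒜.Finite) (hp : ∀ D ∈ 𝒜, J.IsPrime E D)
    (hS : IsPreconnected ((f ⁻¹' S)ᶜ \ ⋃₀ 𝒜)) :
    IsOrbD E d T f S Q QB U π ϖ j ℓ L u 𝒜 (LW E f ϖ L u 𝒜) where
  lift a x β h := ⟨fun z => cubL (PhiM E 𝒜 (ϖ a (f z)) (u a z β) 0), h,
    Eventually.of_forall fun _ => rfl⟩
  toL a x β w h := h.1
  pole a x β w h F e hF he := pole_orb hf hM h𝒜 hp h F e hF he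
  near a x β w h := by
    filter_upwards [hM.near a x β h.1, eventually_eventually_nhds.2 h.2] with z h1 h2
    exact ⟨h1, h2⟩
  change a b x β β' w w' h h' := change_orb hf hM h𝒜 hp a b x β β' w w' h h'
  bound := by
    obtain ⟨τ, hτ, hfib⟩ := hfib hf hM h𝒜 hp hS
    refine H511.UD.orbD_bound hM hτ fun a x β hx hxD => ?_
    obtain ⟨Le, S', lam, wf, h1, h2, h3⟩ := hfib a x β hx hxD
    refine ⟨fun z => cubL (PhiM E 𝒜 (ϖ a (f z)) (u a z β) 0),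
      ⟨hx, Eventually.of_forall fun _ => rfl⟩, Le, S', lam, wf, h1, fun x₁ x₂ x₃ => ?_, h3⟩
    rw [cubL_apply]
    refine h2 0 (fun D hD => ?_) x₁ x₂ x₃
    rw [hM.zero a x β hx]
    exact hxD D hD
  third a x β h _ := third_orb hf hM h𝒜 hp a x β h

/-- **UL.** -/
theorem orbD : H303.UD.OrbDStmt := by
  intro p d n nb g b X Y _ _ _ _ _ _ _ _ _ T f S Q QB ι U π ϖ j ℓ L u 𝒜 hd hf hS hpre hM h𝒜 hp
  exact ⟨_, isOrbD hf hM h𝒜 hp
    (preconn_off (hS.preimage hf.continuous).isOpen_compl hpre h𝒜 hp)⟩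

end Vale.Agent.P281.H383.UL
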