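import Vale.Agent.P281.H383.UL.Sec
import Vale.Agent.P281.H125.D.GlA

/-!
# P281, project T-UD, block UL (helper383): the third logarithmic derivatives on the orbits
(letters of helper125, helper152 and helper969 for families of tori, with parameters `x ∈ X`)
-/

open Set Filter Metric Topology
open scoped ContDiff Manifold
open Vale.Agent.P281 Vale.Agent.P281.H713
open Vale.Agent.P281.H64.TD (Cub)
open Vale.Agent.P281.H64.TU (Tame)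
open Vale.Agent.P281.H303.UD (IsOrbM IsOrbD IsPolz)
open Vale.Agent.P281.H125.D
open Vale.Agent.P281.H969.D (LeA LeM HasDiv)

noncomputable section

namespace Vale.Agent.P281.H383.UL

variable {E E' : Type} [NormedAddCommGroup E] [NormedSpace ℂ E]
  [NormedAddCommGroup E'] [NormedSpace ℂ E']
variable {X Y : Type} [TopologicalSpace X] [ChartedSpace E X]
  [TopologicalSpace Y] [ChartedSpace E' Y]
variable {V : Type} [NormedAddCommGroup V] [InnerProductSpace ℂ V] [FiniteDimensional ℂ V]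
variable {Vb : Type} [NormedAddCommGroup Vb] [InnerProductSpace ℂ Vb] [FiniteDimensional ℂ Vb]

/-! ### One orbit -/

section one

variable {𝒜 : Set (Set X)} {m : ℕ}

theorem one_dense (h𝒜 : 𝒜.Finite) (hp : ∀ D ∈ 𝒜, J.IsPrime E D) {uy : Vb → X}
    (hu : ∀ v, ContMDiffAt 𝓘(ℂ, Vb) 𝓘(ℂ, E) ω uy v) {v₀ : Vb} (hv₀ : ∀ D ∈ 𝒜, uy v₀ ∉ D) (z : Vb) :
    ¬ ∀ᶠ z' in 𝓝 z, z' ∈ {v | ∃ D ∈ 𝒜, uy v ∈ D} := by
  intro h
  have h0 := H152.D.off_fibre hu h𝒜 hp (fun D hD => ⟨v₀, hv₀ D hD⟩) z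
  obtain ⟨v', h1, h2⟩ := (h0.and_eventually h).exists
  obtain ⟨D, hD, h3⟩ := h2
  exact h1 D hD h3

theorem one_cont {uy : Vb → X} (hu : ∀ v, ContMDiffAt 𝓘(ℂ, Vb) 𝓘(ℂ, E) ω uy v) :
    Continuous uy := continuous_iff_continuousAt.2 fun v => (hu v).continuousAt

/-- The third logarithmic derivatives of helper349. -/
theorem one_third (h𝒜 : 𝒜.Finite) (hp : ∀ D ∈ 𝒜, J.IsPrime E D) {e : (Fin m → ℝ) ≃L[ℝ] Vb}
    {uy : Vb → X} (hu : ∀ v, ContMDiffAt 𝓘(ℂ, Vb) 𝓘(ℂ, E) ω uy v)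
    (h : IsCan e {v | ∃ D ∈ 𝒜, uy v ∈ D} (LeA E 𝒜 uy)
      (canW e {v | ∃ D ∈ 𝒜, uy v ∈ D} (LeA E 𝒜 uy))) :
    H349.D.IsThird {v | ∃ D ∈ 𝒜, uy v ∈ D} (PhiM E 𝒜 e uy) :=
  h.isThird (closedA h𝒜 (fun D hD => (hp D hD).1) (one_cont hu)) (fun v => leA_ex hp _ v)
    (fun v _ h => leA_an h𝒜 (hu v) h)
    (fun v _ h => leA_zero h𝒜 (one_cont hu).continuousAt h)

/-- Naturality of the third logarithmic derivatives. -/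
theorem one_nat (h𝒜 : 𝒜.Finite) (hp : ∀ D ∈ 𝒜, J.IsPrime E D) {e e' : (Fin m → ℝ) ≃L[ℝ] Vb}
    {uy uy' : Vb → X} (hu : ∀ v, ContMDiffAt 𝓘(ℂ, Vb) 𝓘(ℂ, E) ω uy v)
    (hu' : ∀ v, ContMDiffAt 𝓘(ℂ, Vb) 𝓘(ℂ, E) ω uy' v)
    (ha : IsCan e {v | ∃ D ∈ 𝒜, uy v ∈ D} (LeA E 𝒜 uy)
      (canW e {v | ∃ D ∈ 𝒜, uy v ∈ D} (LeA E 𝒜 uy)))
    (hb : IsCan e' {v | ∃ D ∈ 𝒜, uy' v ∈ D} (LeA E 𝒜 uy')
      (canW e' {v | ∃ D ∈ 𝒜, uy' v ∈ D} (LeA E 𝒜 uy')))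
    (hper : ∀ v (k : Fin m → ℤ), uy (v + e (zr k)) = uy v)
    {G : Vb ≃L[ℂ] Vb} {c : Vb} (hG : ∀ k : Fin m → ℤ, ∃ k' : Fin m → ℤ, G (e (zr k)) = e' (zr k'))
    (huu : ∀ w, uy' (G w + c) = uy w) {v : Vb} (hv : ∀ D ∈ 𝒜, uy v ∉ D) (x₁ x₂ x₃ : Vb) :
    PhiM E 𝒜 e uy v x₁ x₂ x₃ = PhiM E 𝒜 e' uy' (G v + c) (G x₁) (G x₂) (G x₃) := by
  have hb' : ∀ v h, LeA E 𝒜 uy' v h →
      ∀ᶠ v' in 𝓝 v, (v' ∈ {v | ∃ D ∈ 𝒜, uy' v ∈ D} ↔ h v' = 0) :=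
    fun v _ h => leA_zero h𝒜 (one_cont hu').continuousAt h
  have h1 := hb.comp (e := e) (D := {v | ∃ D ∈ 𝒜, uy v ∈ D}) (Le := LeA E 𝒜 uy) G c
    (fun v => by
      show (∃ D ∈ 𝒜, uy v ∈ D) ↔ ∃ D ∈ 𝒜, uy' (G v + c) ∈ D
      rw [huu])
    hG (fun v _ h => leA_an h𝒜 (hu' v) h)
    (fun v g h => (hb' v g h).mono fun v' h' => h'.2)
    (by
      rintro v g ⟨e, he, hge⟩
      refine ⟨fun v' => ∏ᶠ (D : Set X) (_ : D ∈ 𝒜), e D (uy' v'), ⟨e, ?_, EventuallyEq.rfl⟩, ?_⟩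
      · intro D hD
        rw [huu]
        exact he D hD
      · filter_upwards [hge] with v' hv'
        rw [hv', huu])
  have hD : v ∉ {v | ∃ D ∈ 𝒜, uy v ∈ D} := fun ⟨D, hD, h⟩ => hv D hD h
  have hDb : G v + c ∉ {v | ∃ D ∈ 𝒜, uy' v ∈ D} := by
    rintro ⟨D, hD, h⟩
    rw [huu] at h
    exact hv D hD h
  have h2 := ha.fderiv_eq h1 (fun v => leA_ex hp _ v) (one_dense h𝒜 hp hu hv)
    (fun z k hz => by
      rintro ⟨D, hD, h⟩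
      rw [hper z k] at h
      exact hz ⟨D, hD, h⟩)
    (closedA h𝒜 (fun D hD => (hp D hD).1) (one_cont hu)) hD
  have h3 := hb.an (closedA h𝒜 (fun D hD => (hp D hD).1) (one_cont hu'))
    (fun v => leA_ex hp _ v) (fun v _ h => leA_an h𝒜 (hu' v) h) hb' hDb
  unfold PhiM
  rw [h2]
  exact fderiv_comp G c h3.differentiableAt x₁ x₂ x₃

end one

/-! ### The orbits -/

variable {n nb d : ℕ} {T : Tame (Fin d → ℂ) X} {f : X → Y} {S : Set Y}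
  {Q : (Fin n → ℝ) → (Fin n → ℝ) → ℝ} {QB : (Fin nb → ℝ) → (Fin nb → ℝ) → ℝ} {ι : Type}
  {U : ι → Set Y} {π : ι → Y → ((Fin n → ℝ) ≃L[ℝ] V)} {ϖ : ι → Y → ((Fin nb → ℝ) ≃L[ℝ] Vb)}
  {j : ι → Y → Vb →L[ℂ] V} {ℓ : ι → Y → V →L[ℂ] Vb} {L : ι → X → (X → V) → Prop}
  {u : ι → X → (X → V) → Vb → X} {𝒜 : Set (Set X)}

variable [FiniteDimensional ℂ E] [IsManifold 𝓘(ℂ, E) ω X]

/-- The divisor datum, in a chart of `X`. -/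
theorem divDatum (hf : ContMDiff 𝓘(ℂ, E) 𝓘(ℂ, E') ω f)
    (hM : IsOrbM E E' d T f S Q QB U π ϖ j ℓ L u) (h𝒜 : 𝒜.Finite) (hp : ∀ D ∈ 𝒜, J.IsPrime E D)
    (a : ι) (β : X → V) {χ : OpenPartialHomeomorph X E}
    (hχ : χ ∈ IsManifold.maximalAtlas 𝓘(ℂ, E) ω X) :
    DivDatum (fun t => ϖ a (f (χ.symm t))) (χ.target ∩ χ.symm ⁻¹' {x | L a x β})
      {w : E × Vb | ∃ D ∈ 𝒜, u a (χ.symm w.1) β w.2 ∈ D}
      (LeM E 𝒜 (fun x v => u a x β v) χ.symm (χ.target ∩ χ.symm ⁻¹' {x | L a x β})) :=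
  (isCov hf hM a β hχ).divDatum h𝒜 hp

/-- Local second derivatives. -/
theorem exists_locO (hf : ContMDiff 𝓘(ℂ, E) 𝓘(ℂ, E') ω f)
    (hM : IsOrbM E E' d T f S Q QB U π ϖ j ℓ L u) (h𝒜 : 𝒜.Finite) (hp : ∀ D ∈ 𝒜, J.IsPrime E D)
    (a : ι) (β : X → V) {χ : OpenPartialHomeomorph X E}
    (hχ : χ ∈ IsManifold.maximalAtlas 𝓘(ℂ, E) ω X) {t₀ : E}
    (ht₀ : t₀ ∈ χ.target ∩ χ.symm ⁻¹' {x | L a x β}) :
    ∃ (B : Set E) (w : E × Vb → Vb →L[ℂ] Vb →L[ℂ] ℂ), t₀ ∈ B ∧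
      B ⊆ χ.target ∩ χ.symm ⁻¹' {x | L a x β} ∧
      IsW (fun t => ϖ a (f (χ.symm t))) {w : E × Vb | ∃ D ∈ 𝒜, u a (χ.symm w.1) β w.2 ∈ D}
        (LeM E 𝒜 (fun x v => u a x β v) χ.symm (χ.target ∩ χ.symm ⁻¹' {x | L a x β})) B w ∧
      ∀ t ∈ B, IsCan (ϖ a (f (χ.symm t))) {v | ∃ D ∈ 𝒜, u a (χ.symm t) β v ∈ D}
        (LeA E 𝒜 (u a (χ.symm t) β)) (fun v => w (t, v)) ∧
        ∀ v, (∀ D ∈ 𝒜, u a (χ.symm t) β v ∉ D) →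
          PhiM E 𝒜 (ϖ a (f (χ.symm t))) (u a (χ.symm t) β) v = H125.D.dV w (t, v) := by
  have hD := divDatum hf hM h𝒜 hp a β hχ
  have hC := isCov hf hM a β hχ
  obtain ⟨B, w, h1, h2, h3⟩ := exists_w hD hC.isOpen hC.hper ht₀
  have hLe : ∀ t ∈ B, ∀ v g, LeA E 𝒜 (u a (χ.symm t) β) v g →
      ∃ H, LeM E 𝒜 (fun x v => u a x β v) χ.symm (χ.target ∩ χ.symm ⁻¹' {x | L a x β}) (t, v) H ∧
        g =ᶠ[𝓝 v] fun v' => H (t, v') := by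
    rintro t ht v g ⟨e, he, hge⟩
    exact ⟨fun w' => ∏ᶠ (D : Set X) (_ : D ∈ 𝒜), e D (u a (χ.symm w'.1) β w'.2),
      ⟨h2 ht, e, he, EventuallyEq.rfl⟩, hge⟩
  refine ⟨B, w, h1, h2, h3, fun t ht => ⟨?_, fun v hv => ?_⟩⟩
  · exact h3.isCan hD h2 ht (D := {v | ∃ D ∈ 𝒜, u a (χ.symm t) β v ∈ D}) (fun v => Iff.rfl)
      (hLe t ht)
  · exact fderiv_canW hD h2 h3 ht (D := {v | ∃ D ∈ 𝒜, u a (χ.symm t) β v ∈ D})
      (fun v => Iff.rfl) (hLe t ht) (fun v => leA_ex hp _ v) (fun ⟨D, hD, h⟩ => hv D hD h)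

/-- The canonical second derivative exists on each orbit. -/
theorem can_orb (hf : ContMDiff 𝓘(ℂ, E) 𝓘(ℂ, E') ω f)
    (hM : IsOrbM E E' d T f S Q QB U π ϖ j ℓ L u) (h𝒜 : 𝒜.Finite) (hp : ∀ D ∈ 𝒜, J.IsPrime E D)
    {a : ι} {x : X} {β : X → V} (h : L a x β) :
    IsCan (ϖ a (f x)) {v | ∃ D ∈ 𝒜, u a x β v ∈ D} (LeA E 𝒜 (u a x β))
      (canW (ϖ a (f x)) {v | ∃ D ∈ 𝒜, u a x β v ∈ D} (LeA E 𝒜 (u a x β))) := by
  have h0 : (chartAt E x).symm (chartAt E x x) = x := (chartAt E x).left_inv (mem_chart_source E x)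
  obtain ⟨B, w, h1, -, -, h2⟩ := exists_locO hf hM h𝒜 hp a β
    (IsManifold.chart_mem_maximalAtlas (I := 𝓘(ℂ, E)) (n := ω) x) (t₀ := chartAt E x x)
    ⟨mem_chart_target E x, by
      show L a ((chartAt E x).symm (chartAt E x x)) β
      rwa [h0]⟩
  have h3 := (h2 _ h1).1
  rw [h0] at h3
  exact canW_spec ⟨_, h3⟩

/-- `β` is a lift near `x`, `w` the third logarithmic derivatives at the origins of the orbits. -/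
def LW (E : Type) [NormedAddCommGroup E] [NormedSpace ℂ E] [ChartedSpace E X]
    (f : X → Y) (ϖ : ι → Y → ((Fin nb → ℝ) ≃L[ℝ] Vb)) (L : ι → X → (X → V) → Prop)
    (u : ι → X → (X → V) → Vb → X) (𝒜 : Set (Set X)) (a : ι) (x : X) (β : X → V)
    (w : X → Cub Vb) : Prop :=
  L a x β ∧ ∀ᶠ z in 𝓝 x, w z = cubL (PhiM E 𝒜 (ϖ a (f z)) (u a z β) 0)

theorem change_orb (hf : ContMDiff 𝓘(ℂ, E) 𝓘(ℂ, E') ω f)
    (hM : IsOrbM E E' d T f S Q QB U π ϖ j ℓ L u) (h𝒜 : 𝒜.Finite) (hp : ∀ D ∈ 𝒜, J.IsPrime E D)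
    (a b : ι) (x : X) (β β' : X → V) (w w' : X → Cub Vb) (hL : LW E f ϖ L u 𝒜 a x β w)
    (hL' : LW E f ϖ L u 𝒜 b x β' w') :
    ∃ (G : V ≃L[ℂ] V) (c : V) (Gb : Vb ≃L[ℂ] Vb), IsPeriodChange Q (π a (f x)) (π b (f x)) G ∧
      IsPeriodChange QB (ϖ a (f x)) (ϖ b (f x)) Gb ∧
      (∀ v, j b (f x) (Gb v) = G (j a (f x) v)) ∧ (∀ v, ℓ b (f x) (G v) = Gb (ℓ a (f x) v)) ∧
      ∀ᶠ z in 𝓝 x, f z = f x → β' z = G (β z) + c ∧ ((∀ D ∈ 𝒜, z ∉ D) →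
        w z = (w' z).compContinuousLinearMap fun _ => (Gb : Vb →L[ℂ] Vb)) := by
  obtain ⟨hx, hw⟩ := hL
  obtain ⟨hx', hw'⟩ := hL'
  obtain ⟨G, c, Gb, h1, h2, h3, h4, h5⟩ := hM.change a b x β β' hx hx'
  refine ⟨G, c, Gb, h1, h2, h3, h4, ?_⟩
  filter_upwards [h5, hw, hw', hM.near a x β hx, hM.near b x β' hx'] with z g1 g2 g3 g4 g5 hz
  refine ⟨(g1 hz).1, fun hz' => ?_⟩
  have g6 := (g1 hz).2
  have c1 := can_orb hf hM h𝒜 hp g4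
  have c2 := can_orb hf hM h𝒜 hp g5
  have hper := hM.per a z β g4
  rw [g2, g3]
  rw [hz] at c1 c2 hper ⊢
  ext m
  rw [ContinuousMultilinearMap.compContinuousLinearMap_apply, cubL_apply', cubL_apply']
  have g7 := one_nat h𝒜 hp (orb_hol hM g4) (orb_hol hM g5) c1 c2 hper (G := Gb) (c := 0)
    (fun k => h2.1 k) (fun w => by rw [add_zero]; exact g6 w) (v := 0)
    (fun D hD => by rw [hM.zero a z β g4]; exact hz' D hD) (m 0) (m 1) (m 2)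
  rw [g7, map_zero, add_zero]
  rfl

/-- **The field `third`.** -/
theorem third_orb (hf : ContMDiff 𝓘(ℂ, E) 𝓘(ℂ, E') ω f)
    (hM : IsOrbM E E' d T f S Q QB U π ϖ j ℓ L u) (h𝒜 : 𝒜.Finite) (hp : ∀ D ∈ 𝒜, J.IsPrime E D)
    (a : ι) (x : X) (β : X → V) (h : L a x β) :
    ∃ φ : Vb → Vb →L[ℂ] Vb →L[ℂ] Vb →L[ℂ] ℂ, H349.D.IsThird {v | ∃ D ∈ 𝒜, u a x β v ∈ D} φ ∧
      ∀ v, (∀ D ∈ 𝒜, u a x β v ∉ D) → ∀ β' w', LW E f ϖ L u 𝒜 a (u a x β v) β' w' →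
        (∀ v', u a (u a x β v) β' v' = u a x β (v + v')) →
        ∀ᶠ v' in 𝓝 v, ∀ x₁ x₂ x₃, w' (u a x β v') ![x₁, x₂, x₃] = φ v' x₁ x₂ x₃ := by
  have c1 := can_orb hf hM h𝒜 hp h
  refine ⟨PhiM E 𝒜 (ϖ a (f x)) (u a x β), one_third h𝒜 hp (orb_hol hM h) c1, ?_⟩
  intro v hv β' w' hL hadd
  obtain ⟨hx', hw'⟩ := hL
  have hc : Tendsto (u a x β) (𝓝 v) (𝓝 (u a x β v)) := (orb_cont hM h).tendsto v
  have hs : Tendsto (fun v' => v' - v) (𝓝 v) (𝓝 (0 : Vb)) := by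
    have h9 : Continuous fun v' : Vb => v' - v := by fun_prop
    have := h9.tendsto v
    rwa [sub_self] at this
  have h8 : ∀ᶠ z in 𝓝 v, ∀ D ∈ 𝒜, u a x β z ∉ D := by
    have h9 := (closedA h𝒜 (fun D hD => (hp D hD).1) (orb_cont hM h)).isOpen_compl.mem_nhds
      (x := v) (fun ⟨D, hD, h⟩ => hv D hD h)
    filter_upwards [h9] with z hz D hD h using hz ⟨D, hD, h⟩
  filter_upwards [hc.eventually hw', hs.eventually (grp hf hM hx'), h8] with v' g1 g2 g3 x₁ x₂ x₃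
  obtain ⟨g4, g5⟩ := g2
  have e0 : u a (u a x β v) β' (v' - v) = u a x β v' := by
    rw [hadd]
    congr 1
    abel
  rw [e0] at g4 g5
  have g6 : ∀ w, u a (u a x β v') β' w = u a x β (v' + w) := by
    intro w
    rw [g5, hadd]
    congr 1
    abel
  have e1 : f (u a x β v') = f x := hM.fib a x β h v'
  have c2 := can_orb hf hM h𝒜 hp g4
  have hper := hM.per a _ β' g4
  rw [g1, cubL_apply]
  rw [e1] at c2 hper ⊢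
  have g7 := one_nat h𝒜 hp (orb_hol hM g4) (orb_hol hM h) c2 c1 hper
    (G := ContinuousLinearEquiv.refl ℂ Vb) (c := v')
    (fun k => ⟨k, rfl⟩) (fun w => by
      show u a x β (w + v') = _
      rw [g6, add_comm]) (v := 0)
    (fun D hD => by rw [hM.zero a _ β' g4]; exact g3 D hD) x₁ x₂ x₃
  rw [g7]
  show PhiM E 𝒜 (ϖ a (f x)) (u a x β) ((0 : Vb) + v') x₁ x₂ x₃ = _
  rw [zero_add]

set_option synthInstance.maxHeartbeats 200000 in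
/-- **The field `pole`.** -/
theorem pole_orb (hf : ContMDiff 𝓘(ℂ, E) 𝓘(ℂ, E') ω f)
    (hM : IsOrbM E E' d T f S Q QB U π ϖ j ℓ L u) (h𝒜 : 𝒜.Finite) (hp : ∀ D ∈ 𝒜, J.IsPrime E D)
    {a : ι} {x : X} {β : X → V} {w : X → Cub Vb}
    (hL : LW E f ϖ L u 𝒜 a x β w) (F : Finset (Set X)) (e : Set X → X → ℂ)
    (hF : ∀ D ∈ 𝒜, D ∈ F) (he : ∀ D ∈ F, J.IsLocalEq E D (e D) x) :
    ∃ H : X → Cub Vb, ContMDiffAt 𝓘(ℂ, E) 𝓘(ℂ, Cub Vb) ω H x ∧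
      ∀ᶠ z in 𝓝 x, (∀ D ∈ 𝒜, z ∉ D) → (∏ D ∈ F, e D z) ^ 3 • w z = H z := by
  classical
  obtain ⟨hx, hw⟩ := hL
  set χ := chartAt E x with hχ
  have hχm : χ ∈ IsManifold.maximalAtlas 𝓘(ℂ, E) ω X :=
    IsManifold.chart_mem_maximalAtlas (I := 𝓘(ℂ, E)) (n := ω) x
  have hs : x ∈ χ.source := mem_chart_source E x
  have h0 : χ.symm (χ x) = x := χ.left_inv hs
  have ht₀ : χ x ∈ χ.target ∩ χ.symm ⁻¹' {x | L a x β} := by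
    refine ⟨χ.map_source hs, ?_⟩
    show L a (χ.symm (χ x)) β
    rwa [h0]
  obtain ⟨B, w₀, h1, h2, h3, h4⟩ := exists_locO hf hM h𝒜 hp a β hχm ht₀
  have hD := divDatum hf hM h𝒜 hp a β hχm
  have e0 : u a x β 0 = x := hM.zero a x β hx
  set h : E × Vb → ℂ := fun w' => ∏ᶠ (D : Set X) (_ : D ∈ 𝒜), e D (u a (χ.symm w'.1) β w'.2)
    with hh
  have hLe : LeM E 𝒜 (fun x v => u a x β v) χ.symm (χ.target ∩ χ.symm ⁻¹' {x | L a x β})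
      (χ x, 0) h := by
    refine ⟨ht₀, e, fun D hD => ?_, EventuallyEq.rfl⟩
    show J.IsLocalEq E D (e D) (u a (χ.symm (χ x)) β 0)
    rw [h0, e0]
    exact he D (hF D hD)
  obtain ⟨H, hH, hH'⟩ := h3.pole hD h2 (p := (χ x, 0)) h1 hLe
  -- the map to the parameter space
  set ψ : X → E × Vb := fun z => (χ z, 0) with hψ
  have hχs : ContMDiffAt 𝓘(ℂ, E) 𝓘(ℂ, E) ω χ x :=
    (contMDiffOn_of_mem_maximalAtlas hχm).contMDiffAt (χ.open_source.mem_nhds hs)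
  have hψ1 : ContMDiffAt 𝓘(ℂ, E) 𝓘(ℂ, E × Vb) ω ψ x :=
    hχs.prodMk_space contMDiffAt_const
  have hψc : Tendsto ψ (𝓝 x) (𝓝 (χ x, 0)) := hψ1.continuousAt
  have hHψ : ContMDiffAt 𝓘(ℂ, E) 𝓘(ℂ, Cub Vb) ω (fun z => cubL (H (ψ z))) x := by
    have g1 : AnalyticAt ℂ (fun q => cubL (H q)) (χ x, (0 : Vb)) := by
      have g2 := ContinuousLinearMap.analyticAt (𝕜 := ℂ)
        (E := Vb →L[ℂ] Vb →L[ℂ] Vb →L[ℂ] ℂ) (F := Cub Vb) cubL (H (χ x, 0))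
      exact AnalyticAt.fun_comp (f := H) g2 hH
    have g3 : ContMDiffAt 𝓘(ℂ, E × Vb) 𝓘(ℂ, Cub Vb) ω (fun q => cubL (H q)) (ψ x) :=
      contMDiffAt_iff_contDiffAt.2 g1.contDiffAt
    exact ContMDiffAt.comp (g := fun q => cubL (H q)) (f := ψ) x g3 hψ1
  have hpr : ContMDiffAt 𝓘(ℂ, E) 𝓘(ℂ, ℂ) ω
      (fun z => (∏ D ∈ F \ h𝒜.toFinset, e D z) ^ 3) x := by
    refine ContMDiffAt.pow ?_ 3
    refine contMDiffAt_finset_prod fun D hD => ?_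
    exact H152.D.leq_hol (he D (Finset.mem_sdiff.1 hD).1)
  refine ⟨fun z => (∏ D ∈ F \ h𝒜.toFinset, e D z) ^ 3 • cubL (H (ψ z)), hpr.smul hHψ, ?_⟩
  have hsub : h𝒜.toFinset ⊆ F := fun D hD => hF D (h𝒜.mem_toFinset.1 hD)
  have k2 : ∀ᶠ z in 𝓝 x, (ψ z).1 ∈ B := by
    have g1 : ∀ᶠ q : E × Vb in 𝓝 (χ x, (0 : Vb)), q.1 ∈ B :=
      (h3.isOpen.preimage continuous_fst).mem_nhds h1
    exact hψc.eventually g1
  filter_upwards [χ.open_source.mem_nhds hs, k2, hM.near a x β hx, hw, hψc.eventually hH']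
    with z g1 g2 g3 g4 g5 hz
  have g6 : χ.symm (χ z) = z := χ.left_inv g1
  have g60 : u a z β 0 = z := hM.zero a z β g3
  have g7 := (h4 _ g2).2 0 (by
    show ∀ D ∈ 𝒜, u a (χ.symm (χ z)) β 0 ∉ D
    rw [g6, g60]
    exact hz)
  have g7' : PhiM E 𝒜 (ϖ a (f z)) (u a z β) 0 = H125.D.dV w₀ (ψ z) := by
    have g8 : PhiM E 𝒜 (ϖ a (f (χ.symm (χ z)))) (u a (χ.symm (χ z)) β) 0 = H125.D.dV w₀ (ψ z) := g7
    rwa [g6] at g8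
  have g9 : ψ z ∉ {w : E × Vb | ∃ D ∈ 𝒜, u a (χ.symm w.1) β w.2 ∈ D} := by
    rintro ⟨D, hD, hD'⟩
    have g10 : u a (χ.symm (χ z)) β 0 ∈ D := hD'
    rw [g6, g60] at g10
    exact hz D hD g10
  have g11 := g5 g9
  have g12 : h (ψ z) = ∏ D ∈ h𝒜.toFinset, e D z := by
    show (∏ᶠ (D : Set X) (_ : D ∈ 𝒜), e D (u a (χ.symm (χ z)) β 0)) = _
    rw [g6, g60, H152.D.fp_eq h𝒜 fun D => e D z]
  rw [g4, g7', ← Finset.prod_sdiff hsub, mul_pow, mul_smul, ← g11, g12]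
  congr 1

end Vale.Agent.P281.H383.UL
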