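import Vale.Agent.P281.H303.UD.Spec
import Vale.Agent.P281.H152.D.Cov

/-!
# P281, project T-UD, block UL (helper383): orbits, local sections, the local group law
-/

open Set Filter Metric Topology
open scoped ContDiff Manifold
open Vale.Agent.P281 Vale.Agent.P281.H713
open Vale.Agent.P281.H64.TD (Cub)
open Vale.Agent.P281.H64.TU (Tame)
open Vale.Agent.P281.H303.UD (IsOrbM IsOrbD IsPolz)

noncomputable section

namespace Vale.Agent.P281.H383.UL

variable {E E' : Type} [NormedAddCommGroup E] [NormedSpace ℂ E]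
  [NormedAddCommGroup E'] [NormedSpace ℂ E']
variable {X Y : Type} [TopologicalSpace X] [ChartedSpace E X]
  [TopologicalSpace Y] [ChartedSpace E' Y]
variable {V : Type} [NormedAddCommGroup V] [InnerProductSpace ℂ V] [FiniteDimensional ℂ V]
variable {Vb : Type} [NormedAddCommGroup Vb] [InnerProductSpace ℂ Vb] [FiniteDimensional ℂ Vb]

/-- Local inverse of a holomorphic map whose differential is injective. -/
theorem exists_locInv [FiniteDimensional ℂ E] {F : X → X} {x : X}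
    (hF : ContMDiffAt 𝓘(ℂ, E) 𝓘(ℂ, E) ω F x)
    (hi : ∀ ξ : E, mfderiv 𝓘(ℂ, E) 𝓘(ℂ, E) F x ξ = 0 → ξ = 0) :
    ∃ ρ : X → X, Tendsto ρ (𝓝 (F x)) (𝓝 x) ∧ ∀ᶠ z in 𝓝 (F x), F (ρ z) = z := by
  classical
  have : CompleteSpace E := FiniteDimensional.complete ℂ E
  set G : E → E := writtenInExtChartAt 𝓘(ℂ, E) 𝓘(ℂ, E) x F with hG
  set a : E := extChartAt 𝓘(ℂ, E) x x with ha
  have h1 : ContDiffAt ℂ ω G a := by
    have := (contMDiffAt_iff.1 hF).2
    rw [hG, ha]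
    simpa [writtenInExtChartAt, contDiffWithinAt_univ] using this
  have h2 : mfderiv 𝓘(ℂ, E) 𝓘(ℂ, E) F x = fderiv ℂ G a := by
    rw [(hF.mdifferentiableAt (by simp)).mfderiv]
    simp only [ModelWithCorners.range_eq_univ, fderivWithin_univ]
    rfl
  have hinj : Function.Injective (fderiv ℂ G a) := by
    rw [injective_iff_map_eq_zero]
    intro ξ hξ
    refine hi ξ ?_
    rw [h2]
    exact hξ
  let e : E ≃L[ℂ] E := (LinearEquiv.ofInjectiveEndo (fderiv ℂ G a : E →ₗ[ℂ] E)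
    hinj).toContinuousLinearEquiv
  have he : (e : E →L[ℂ] E) = fderiv ℂ G a := by
    ext v
    rfl
  have hn : (ω : WithTop ℕ∞) ≠ 0 := by simp
  have hd : HasFDerivAt G (e : E →L[ℂ] E) a := by
    rw [he]
    exact (h1.differentiableAt hn).hasFDerivAt
  have hstr : HasStrictFDerivAt G (e : E →L[ℂ] E) a := h1.hasStrictFDerivAt' hd hn
  set R := h1.localInverse hd hn with hR
  have hR0 : R (G a) = a := h1.localInverse_apply_image hd hn
  have hRc : ContinuousAt R (G a) := (h1.to_localInverse hd hn).continuousAt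
  have hRr : ∀ᶠ y in 𝓝 (G a), G (R y) = y := hstr.eventually_right_inverse
  have hGa : G a = chartAt E (F x) (F x) := by
    rw [hG, ha]
    simp [writtenInExtChartAt]
  have hxs := mem_chart_source E x
  have hFs := mem_chart_source E (F x)
  have hax : a = chartAt E x x := by rw [ha]; simp
  set χ := chartAt E x with hχ
  set χ' := chartAt E (F x) with hχ'
  have t1 : Tendsto χ' (𝓝 (F x)) (𝓝 (G a)) := by
    rw [hGa]
    exact (χ'.continuousAt hFs).tendsto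
  have t2 : Tendsto (fun z => R (χ' z)) (𝓝 (F x)) (𝓝 a) := by
    have := hRc.tendsto.comp t1
    rwa [hR0] at this
  have t3 : Tendsto χ.symm (𝓝 a) (𝓝 x) := by
    have h3 := (χ.symm.continuousAt (x := a) (by
      rw [hax]
      exact χ.map_source hxs)).tendsto
    have h4 : χ.symm a = x := by rw [hax]; exact χ.left_inv hxs
    rwa [h4] at h3
  have t4 : Tendsto (fun z => χ.symm (R (χ' z))) (𝓝 (F x)) (𝓝 x) := t3.comp t2
  refine ⟨fun z => χ.symm (R (χ' z)), t4, ?_⟩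
  have t5 : Tendsto (fun z => F (χ.symm (R (χ' z)))) (𝓝 (F x)) (𝓝 (F x)) :=
    hF.continuousAt.tendsto.comp t4
  filter_upwards [t1.eventually hRr, t5.eventually (χ'.open_source.mem_nhds hFs),
    χ'.open_source.mem_nhds hFs] with z k1 k2 k3
  have k4 : G (R (χ' z)) = χ' (F (χ.symm (R (χ' z)))) := by
    rw [hG]
    simp [writtenInExtChartAt, hχ, hχ']
  rw [k4] at k1
  exact χ'.injOn k2 k3 k1

variable {n nb d : ℕ} {T : Tame (Fin d → ℂ) X} {f : X → Y} {S : Set Y}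
  {Q : (Fin n → ℝ) → (Fin n → ℝ) → ℝ} {QB : (Fin nb → ℝ) → (Fin nb → ℝ) → ℝ} {ι : Type}
  {U : ι → Set Y} {π : ι → Y → ((Fin n → ℝ) ≃L[ℝ] V)} {ϖ : ι → Y → ((Fin nb → ℝ) ≃L[ℝ] Vb)}
  {j : ι → Y → Vb →L[ℂ] V} {ℓ : ι → Y → V →L[ℂ] Vb} {L : ι → X → (X → V) → Prop}
  {u : ι → X → (X → V) → Vb → X}

section basic

theorem isOpen_L (hM : IsOrbM E E' d T f S Q QB U π ϖ j ℓ L u) (a : ι) (β : X → V) :
    IsOpen {x | L a x β} := by
  rw [isOpen_iff_mem_nhds]
  exact fun x hx => hM.near a x β hx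

/-- the orbit map is holomorphic on `Vb` -/
theorem orb_hol (hM : IsOrbM E E' d T f S Q QB U π ϖ j ℓ L u) {a : ι} {x : X} {β : X → V}
    (h : L a x β) (v : Vb) : ContMDiffAt 𝓘(ℂ, Vb) 𝓘(ℂ, E) ω (u a x β) v := by
  have h1 : ContMDiffAt 𝓘(ℂ, Vb) (𝓘(ℂ, E).prod 𝓘(ℂ, Vb)) ω (fun v : Vb => (x, v)) v :=
    contMDiffAt_const.prodMk contMDiffAt_id
  exact ContMDiffAt.comp (g := fun z : X × Vb => u a z.1 β z.2) (f := fun v : Vb => (x, v)) v
    (hM.uhol a x β h v) h1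

theorem orb_cont (hM : IsOrbM E E' d T f S Q QB U π ϖ j ℓ L u) {a : ι} {x : X} {β : X → V}
    (h : L a x β) : Continuous (u a x β) :=
  continuous_iff_continuousAt.2 fun v => (orb_hol hM h v).continuousAt

/-- the translation by `v` -/
theorem trn_hol (hM : IsOrbM E E' d T f S Q QB U π ϖ j ℓ L u) {a : ι} {x : X} {β : X → V}
    (h : L a x β) (v : Vb) : ContMDiffAt 𝓘(ℂ, E) 𝓘(ℂ, E) ω (fun x => u a x β v) x := by
  have h1 : ContMDiffAt 𝓘(ℂ, E) (𝓘(ℂ, E).prod 𝓘(ℂ, Vb)) ω (fun x : X => (x, v)) x :=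
    contMDiffAt_id.prodMk contMDiffAt_const
  exact ContMDiffAt.comp (g := fun z : X × Vb => u a z.1 β z.2) (f := fun x : X => (x, v)) x
    (hM.uhol a x β h v) h1

theorem orb_tendsto (hM : IsOrbM E E' d T f S Q QB U π ϖ j ℓ L u) {a : ι} {x : X} {β : X → V}
    (h : L a x β) (v : Vb) :
    Tendsto (fun z : X × Vb => u a z.1 β z.2) (𝓝 (x, v)) (𝓝 (u a x β v)) :=
  (hM.uhol a x β h v).continuousAt

theorem ev_fst {x : X} {v : Vb} {P : X × Vb → Prop} (h : ∀ᶠ z in 𝓝 (x, v), P z) :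
    ∀ᶠ x' in 𝓝 x, P (x', v) :=
  (Continuous.tendsto (by fun_prop : Continuous fun x' : X => (x', v)) x).eventually h

theorem ev_snd {x : X} {v : Vb} {P : X × Vb → Prop} (h : ∀ᶠ z in 𝓝 (x, v), P z) :
    ∀ᶠ v' in 𝓝 v, P (x, v') :=
  (Continuous.tendsto (by fun_prop : Continuous fun v' : Vb => (x, v')) v).eventually h

/-- the translation by `v` is a local isomorphism -/
theorem exists_sec [FiniteDimensional ℂ E] (hf : ContMDiff 𝓘(ℂ, E) 𝓘(ℂ, E') ω f)
    (hM : IsOrbM E E' d T f S Q QB U π ϖ j ℓ L u) {a : ι} {x : X} {β : X → V}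
    (h : L a x β) (v : Vb) : ∃ ρ : X → X, Tendsto ρ (𝓝 (u a x β v)) (𝓝 x) ∧
      ∀ᶠ z in 𝓝 (u a x β v), u a (ρ z) β v = z := by
  refine exists_locInv (trn_hol hM h v) fun ξ hξ => ?_
  obtain ⟨β', h1, -, h3⟩ := hM.trans a x β h v
  have h4 := ev_fst h3
  have hU := ((trn_hol hM h v).mdifferentiableAt (by simp)).hasMFDerivAt
  have hβ' := ((hM.liftHol a _ β' h1).mdifferentiableAt (by simp)).hasMFDerivAt
  have hff : ∀ x, HasMFDerivAt 𝓘(ℂ, E) 𝓘(ℂ, E') f x (mfderiv 𝓘(ℂ, E) 𝓘(ℂ, E') f x) :=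
    fun x => ((hf x).mdifferentiableAt (by simp)).hasMFDerivAt
  have hj := ((hM.jhol a v (f x) (hM.mem a x β h)).mdifferentiableAt (by simp)).hasMFDerivAt
  -- `df ξ = 0`
  have k1 := (hff (u a x β v)).comp x hU
  have k2 : (f ∘ fun x => u a x β v) =ᶠ[𝓝 x] f := by
    filter_upwards [hM.near a x β h] with z hz
    exact hM.fib a z β hz v
  have k3 := (k1.congr_of_eventuallyEq k2.symm).mfderiv
  have k4 : mfderiv 𝓘(ℂ, E) 𝓘(ℂ, E') f x ξ = 0 := by
    rw [k3]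
    show (mfderiv 𝓘(ℂ, E) 𝓘(ℂ, E') f (u a x β v)) ((mfderiv 𝓘(ℂ, E) 𝓘(ℂ, E) (fun x => u a x β v) x) ξ)
      = 0
    rw [hξ]
    exact map_zero _
  refine hM.imm a x β h ξ k4 ?_
  have m1 := hβ'.comp x hU
  have m2 := hj.comp x (hff x)
  have m3 := m1.sub m2
  have m4 : β =ᶠ[𝓝 x] (β' ∘ fun x => u a x β v) - ((fun y => j a y v) ∘ f) := by
    filter_upwards [h4] with z hz
    show β z = β' (u a z β v) - j a (f z) v
    rw [hz]
    abel
  have m5 := (m3.congr_of_eventuallyEq m4).mfderiv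
  rw [m5]
  let A : E →L[ℂ] V := mfderiv 𝓘(ℂ, E) 𝓘(ℂ, V) β' (u a x β v)
  let M : E →L[ℂ] E := mfderiv 𝓘(ℂ, E) 𝓘(ℂ, E) (fun x => u a x β v) x
  let B : E' →L[ℂ] V := mfderiv 𝓘(ℂ, E') 𝓘(ℂ, V) (fun y => j a y v) (f x)
  let F : E →L[ℂ] E' := mfderiv 𝓘(ℂ, E) 𝓘(ℂ, E') f x
  have hM0 : M ξ = 0 := hξ
  have hF0 : F ξ = 0 := k4
  show A (M ξ) - B (F ξ) = 0
  rw [hM0, hF0, map_zero, map_zero, sub_zero]

/-- uniqueness of the orbit maps -/
theorem uniq (hM : IsOrbM E E' d T f S Q QB U π ϖ j ℓ L u) {a : ι} {x : X} {β β' : X → V}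
    (h : L a x β) (h' : L a x β') (he : ∀ᶠ z in 𝓝 x, f z = f x → β' z = β z) :
    ∀ᶠ z in 𝓝 x, f z = f x → ∀ v, u a z β' v = u a z β v := by
  obtain ⟨G, c, Gb, -, -, h1, -, h2⟩ := hM.change a a x β β' h h'
  have hG : ∀ v, G v = v := by
    have h3 : ∀ l : V →L[ℂ] ℂ, l.comp ((G : V →L[ℂ] V) - ContinuousLinearMap.id ℂ V) = 0 := by
      intro l
      refine hM.full a x β h _ ?_
      have e : ∀ z, β' z = G (β z) + c → β' z = β z → G (β z) - β z = -c := by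
        intro z k1 k2
        rw [k2] at k1
        have k3 : G (β z) = β z - c := by
          rw [eq_sub_iff_add_eq]
          exact k1.symm
        rw [k3]
        abel
      have e1 := e x (h2.self_of_nhds rfl).1 (he.self_of_nhds rfl)
      filter_upwards [h2, he] with z k1 k2 k3
      show l (G (β z) - β z) = l (G (β x) - β x)
      rw [e1, e z (k1 k3).1 (k2 k3)]
    intro v
    have h4 := DFunLike.congr_fun (h3 (innerSL ℂ (G v - v))) v
    have h5 : inner ℂ (G v - v) (G v - v) = (0 : ℂ) := h4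
    exact sub_eq_zero.1 (inner_self_eq_zero.1 h5)
  have hGb : ∀ v, Gb v = v := by
    intro v
    have h3 := h1 v
    rw [hG] at h3
    have h4 := congrArg (ℓ a (f x)) h3
    rwa [hM.lj a _ (hM.mem a x β h), hM.lj a _ (hM.mem a x β h)] at h4
  filter_upwards [h2] with z hz hfz v
  have h3 := (hz hfz).2 v
  rwa [hGb] at h3

/-- the local group law, for the lifts -/
theorem near0 (hM : IsOrbM E E' d T f S Q QB U π ϖ j ℓ L u) {a : ι} {x : X} {β : X → V}
    (h : L a x β) :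
    ∀ᶠ z in 𝓝 (x, (0 : Vb)), β (u a z.1 β z.2) = β z.1 + j a (f z.1) z.2 := by
  obtain ⟨β', h1, -, h3⟩ := hM.trans a x β h 0
  have h0 : u a x β 0 = x := hM.zero a x β h
  have h4 : ∀ᶠ z in 𝓝 x, β' z = β z := by
    filter_upwards [ev_fst h3, hM.near a x β h] with z k1 k2
    have k3 : u a z β 0 = z := hM.zero a z β k2
    have k4 : β' (u a z β 0) = β z + j a (f z) 0 := k1
    rw [k3, map_zero, add_zero] at k4
    exact k4
  have h5 : Tendsto (fun z : X × Vb => u a z.1 β z.2) (𝓝 (x, 0)) (𝓝 x) := by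
    have := orb_tendsto hM h 0
    rwa [h0] at this
  filter_upwards [h3, h5.eventually h4] with z k1 k2
  rw [← k2, k1]

/-- the local group law -/
theorem grp [FiniteDimensional ℂ E] (hf : ContMDiff 𝓘(ℂ, E) 𝓘(ℂ, E') ω f)
    (hM : IsOrbM E E' d T f S Q QB U π ϖ j ℓ L u) {a : ι} {x : X} {β : X → V}
    (h : L a x β) : ∀ᶠ s in 𝓝 (0 : Vb), L a (u a x β s) β ∧
      ∀ v, u a (u a x β s) β v = u a x β (s + v) := by
  have h0 : u a x β 0 = x := hM.zero a x β h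
  have h2 : ∀ᶠ s in 𝓝 (0 : Vb), ∀ᶠ z in 𝓝 (x, s),
      β (u a z.1 β z.2) = β z.1 + j a (f z.1) z.2 :=
    ev_snd (eventually_eventually_nhds.2 (near0 hM h))
  have h3 : ∀ᶠ s in 𝓝 (0 : Vb), L a (u a x β s) β := by
    have := (orb_cont hM h).tendsto 0
    rw [h0] at this
    exact this.eventually (hM.near a x β h)
  filter_upwards [h2, h3] with s k2 k3
  refine ⟨k3, fun v => ?_⟩
  obtain ⟨β'', m1, m2, m3⟩ := hM.trans a x β h s
  obtain ⟨ρ, r1, r2⟩ := exists_sec hf hM h s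
  have m4 : ∀ᶠ z in 𝓝 (u a x β s), β z = β'' z := by
    have m5 := ev_fst (k2.and m3)
    filter_upwards [r1.eventually m5, r2] with z n1 n2
    have n3 : β (u a (ρ z) β s) = β'' (u a (ρ z) β s) := n1.1.trans n1.2.symm
    rwa [n2] at n3
  have m6 := uniq hM m1 k3 (m4.mono fun z hz _ => hz)
  rw [m6.self_of_nhds rfl v, m2]

end basic

/-- the family of orbits is a covering family, in a chart of `X` -/
theorem isCov [FiniteDimensional ℂ E] [IsManifold 𝓘(ℂ, E) ω X]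
    (hf : ContMDiff 𝓘(ℂ, E) 𝓘(ℂ, E') ω f)
    (hM : IsOrbM E E' d T f S Q QB U π ϖ j ℓ L u) (a : ι) (β : X → V)
    {χ : OpenPartialHomeomorph X E} (hχ : χ ∈ IsManifold.maximalAtlas 𝓘(ℂ, E) ω X) :
    H152.D.IsCov E (fun t => ϖ a (f (χ.symm t))) (χ.target ∩ χ.symm ⁻¹' {x | L a x β})
      (fun w : E × Vb => u a (χ.symm w.1) β w.2) where
  isOpen := χ.continuousOn_symm.isOpen_inter_preimage χ.open_target (isOpen_L hM a β)
  hper := by
    rintro x t ⟨ht1, ht2⟩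
    have ht2' : L a (χ.symm t) β := ht2
    have hs : ContMDiffAt 𝓘(ℂ, E) 𝓘(ℂ, E) ω χ.symm t :=
      (contMDiffOn_symm_of_mem_maximalAtlas hχ).contMDiffAt (χ.open_target.mem_nhds ht1)
    have h0 : ContMDiffAt 𝓘(ℂ, E) 𝓘(ℂ, E') ω (fun t => f (χ.symm t)) t :=
      ContMDiffAt.comp (g := f) (f := χ.symm) t (hf _) hs
    have h1 : ContMDiffAt 𝓘(ℂ, E) 𝓘(ℂ, Vb) ω (fun t => ϖ a (f (χ.symm t)) x) t :=
      ContMDiffAt.comp (g := fun y => ϖ a y x) (f := fun t => f (χ.symm t)) t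
        (hM.famb.hol a x _ (hM.mem a _ β ht2')) h0
    exact ((contMDiffAt_iff_contDiffAt.1 h1).differentiableAt (by simp)).differentiableWithinAt
  hol := by
    rintro ⟨t, v⟩ ⟨ht1, ht2⟩
    have ht2' : L a (χ.symm t) β := ht2
    have hs : ContMDiffAt 𝓘(ℂ, E) 𝓘(ℂ, E) ω χ.symm t :=
      (contMDiffOn_symm_of_mem_maximalAtlas hχ).contMDiffAt (χ.open_target.mem_nhds ht1)
    have h1 : ContMDiffAt 𝓘(ℂ, E × Vb) 𝓘(ℂ, E) ω (fun w : E × Vb => χ.symm w.1) (t, v) :=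
      ContMDiffAt.comp (g := χ.symm) (f := fun w : E × Vb => w.1) (t, v) hs
        (contMDiffAt_iff_contDiffAt.2 contDiffAt_fst)
    have h2 : ContMDiffAt 𝓘(ℂ, E × Vb) 𝓘(ℂ, Vb) ω (fun w : E × Vb => w.2) (t, v) :=
      contMDiffAt_iff_contDiffAt.2 contDiffAt_snd
    exact ContMDiffAt.comp (g := fun z : X × Vb => u a z.1 β z.2)
      (f := fun w : E × Vb => (χ.symm w.1, w.2)) (t, v) (hM.uhol a _ β ht2' v) (h1.prodMk h2)
  per := by
    rintro ⟨t, v⟩ ⟨-, ht2⟩ k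
    exact hM.per a _ β ht2 v k
  sec := by
    rintro ⟨t, v⟩ ⟨ht1, ht2⟩
    have ht2' : L a (χ.symm t) β := ht2
    obtain ⟨ρ, r1, r2⟩ := exists_sec hf hM ht2' v
    have hs : χ.symm t ∈ χ.source := χ.map_target ht1
    have h3 : Tendsto (fun z => χ (ρ z)) (𝓝 (u a (χ.symm t) β v)) (𝓝 t) := by
      have h4 : Tendsto χ (𝓝 (χ.symm t)) (𝓝 t) := by
        have := (χ.continuousAt hs).tendsto
        rwa [χ.right_inv ht1] at this
      exact h4.comp r1
    refine ⟨fun z => (χ (ρ z), v), h3.prodMk_nhds tendsto_const_nhds, ?_⟩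
    filter_upwards [r2, r1.eventually (χ.open_source.mem_nhds hs)] with z k1 k2
    show u a (χ.symm (χ (ρ z))) β v = z
    rw [χ.left_inv k2, k1]

end Vale.Agent.P281.H383.UL
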